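import Vale.Agent.P087.Model

/-!
# The basis vectors of the Fock space, the left and right generators (P087, block 1)
-/

open scoped InnerProductSpace ENNReal

namespace Vale.Agent.P087.Block1

open Classical

set_option linter.unusedSectionVars false

variable {G : Type*} [Group G] {κ : Type*}

/-- the basis vector of a list -/
noncomputable def bv (l : List (G ⊕ κ)) : Fock G κ := lp.single 2 l 1

lemma vac_eq : vac G κ = bv ([] : List (G ⊕ κ)) := rfl

lemma clm_ext {F : Type*} [NormedAddCommGroup F] [NormedSpace ℂ F] {S T : Fock G κ →L[ℂ] F}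
    (h : ∀ l, S (bv l) = T (bv l)) : S = T := by
  refine lp.ext_continuousLinearMap (ENNReal.ofNat_ne_top (n := nat_lit 2)) fun l => ?_
  ext
  simpa [bv] using h l

lemma inner_bv (l : List (G ⊕ κ)) (v : Fock G κ) : ⟪bv l, v⟫_ℂ = (v : List (G ⊕ κ) → ℂ) l := by
  simp [bv, lp.inner_single_left]

lemma inner_bv_right (l : List (G ⊕ κ)) (v : Fock G κ) :
    ⟪v, bv l⟫_ℂ = (starRingEnd ℂ) ((v : List (G ⊕ κ) → ℂ) l) := by
  rw [← inner_conj_symm, inner_bv]

lemma bv_apply (l m : List (G ⊕ κ)) :
    (bv l : List (G ⊕ κ) → ℂ) m = if m = l then 1 else 0 := by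
  simp [bv, Pi.single_apply]

lemma pull_bv (e : List (G ⊕ κ) ≃. List (G ⊕ κ)) (l : List (G ⊕ κ)) :
    pull e (bv l) = (e.symm l).elim 0 bv := by
  simp only [bv]
  exact pull_single e l 1

lemma star_pull (e : List (G ⊕ κ) ≃. List (G ⊕ κ)) : star (pull e) = pull e.symm := by
  rw [ContinuousLinearMap.star_eq_adjoint]
  refine clm_ext fun b => lp.ext (funext fun a => ?_)
  have h : ((ContinuousLinearMap.adjoint (pull e)) (bv b) : List (G ⊕ κ) → ℂ) a
      = (starRingEnd ℂ) ((pull e (bv a) : List (G ⊕ κ) → ℂ) b) := by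
    rw [← inner_bv, ContinuousLinearMap.adjoint_inner_right, inner_bv_right]
  rw [h, pull_apply, pull_apply]
  cases hb : e b with
  | none =>
    cases ha : e.symm a with
    | none => simp
    | some b' =>
      have : b' ≠ b := fun hh => by
        subst hh
        rw [(e.eq_some_iff).1 ha] at hb
        cases hb
      simp [bv_apply, this]
  | some a' =>
    cases ha : e.symm a with
    | none =>
      have : a ≠ a' := fun hh => by
        subst hh
        rw [(e.eq_some_iff).2 hb] at ha
        cases ha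
      simp [bv_apply, Ne.symm this]
    | some b' =>
      by_cases hh : b' = b
      · subst hh
        have : a' = a := Option.some.inj (hb.symm.trans ((e.eq_some_iff).1 ha))
        simp [bv_apply, this]
      · have : a' ≠ a := fun h' => by
          subst h'
          rw [(e.eq_some_iff).2 hb] at ha
          exact hh (Option.some.inj ha).symm
        simp [bv_apply, this, hh]

lemma cre_bv (a : G ⊕ κ) (l : List (G ⊕ κ)) : cre a (bv l) = bv (a :: l) := by
  rw [cre, pull_bv]; rfl

lemma ann_bv_nil (a : G ⊕ κ) : ann a (bv ([] : List (G ⊕ κ))) = 0 := by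
  rw [ann, pull_bv, PEquiv.symm_symm]; rfl

lemma ann_bv_cons (a x : G ⊕ κ) (s : List (G ⊕ κ)) :
    ann a (bv (x :: s)) = (if x = a then (1 : ℂ) else 0) • bv s := by
  rw [ann, pull_bv, PEquiv.symm_symm]
  show (PEquiv.toFun (creE a) (x :: s)).elim 0 bv = _
  simp only [creE]
  split_ifs <;> simp

lemma gau_bv_nil (g : G) : gau g (bv ([] : List (G ⊕ κ))) = 0 := by
  rw [gau, pull_bv]; rfl

lemma gau_bv_inl (g y : G) (s : List (G ⊕ κ)) :
    gau g (bv (Sum.inl y :: s)) = bv (Sum.inl (g * y) :: s) := by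
  rw [gau, pull_bv]; rfl

lemma gau_bv_inr (g : G) (b : κ) (s : List (G ⊕ κ)) :
    gau g (bv (Sum.inr b :: s)) = 0 := by
  rw [gau, pull_bv]; rfl

/-- the adjoint letter -/
def phi : G ⊕ κ → G ⊕ κ := Sum.map (fun x : G => x⁻¹) id

@[simp] lemma phi_inl (x : G) : phi (Sum.inl x : G ⊕ κ) = Sum.inl x⁻¹ := rfl

@[simp] lemma phi_inr (b : κ) : phi (Sum.inr b : G ⊕ κ) = Sum.inr b := rfl

@[simp] lemma phi_phi (a : G ⊕ κ) : phi (phi a) = a := by cases a <;> simp

/-- coefficient of the identity -/
noncomputable def kap : G ⊕ κ → ℂ := Sum.elim (fun g => if g = 1 then 1 / 4 else 0) fun _ => 0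

/-- coefficient of the creation -/
noncomputable def cof : G ⊕ κ → ℂ := Sum.elim (fun _ => 1 / 2) fun _ => 1

lemma cof_ne_zero (a : G ⊕ κ) : cof a ≠ 0 := by cases a <;> simp [cof]

lemma kap_phi (a : G ⊕ κ) : kap (phi a) = kap a := by cases a <;> simp [kap]

lemma cof_phi (a : G ⊕ κ) : cof (phi a) = cof a := by cases a <;> simp [cof]

/-- the indicator of a proposition -/
noncomputable def ind (p : Prop) : ℂ := if p then 1 else 0

/-- the part which does not lengthen a list with first letter `x` and tail `s` -/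
noncomputable def down : G ⊕ κ → G ⊕ κ → List (G ⊕ κ) → Fock G κ
  | Sum.inl g, Sum.inl y, s =>
      (ind (g * y = 1) * (1 / 2)) • bv s + bv (Sum.inl (g * y) :: s)
  | Sum.inr a, Sum.inr b, s => ind (a = b) • bv s
  | _, _, _ => 0

lemma genOp_nil (a : G ⊕ κ) :
    genOp a (bv ([] : List (G ⊕ κ))) = kap a • bv [] + cof a • bv [a] := by
  rcases a with g | a
  · by_cases h : g = 1 <;>
      simp [genOp, genA, kap, cof, h, cre_bv, ann_bv_nil, gau_bv_nil, add_comm]
  · simp [genOp, genS, kap, cof, cre_bv, ann_bv_nil]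

lemma genOp_cons (a x : G ⊕ κ) (s : List (G ⊕ κ)) :
    genOp a (bv (x :: s))
      = kap a • bv (x :: s) + cof a • bv (a :: x :: s) + down a x s := by
  rcases a with g | a <;> rcases x with y | b
  · have h : (Sum.inl y : G ⊕ κ) = Sum.inl g⁻¹ ↔ g * y = 1 := by
      rw [Sum.inl.injEq, mul_eq_one_iff_eq_inv']
    by_cases hg : g = 1 <;> by_cases hy : g * y = 1 <;>
      simp [genOp, genA, kap, cof, down, ind, hg, hy, cre_bv, ann_bv_cons, gau_bv_inl, h] <;> module
  · by_cases hg : g = 1 <;>
      simp [genOp, genA, kap, cof, down, hg, cre_bv, ann_bv_cons, gau_bv_inr]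
    module
  · simp [genOp, genS, kap, cof, down, cre_bv, ann_bv_cons]
  · by_cases hb : a = b <;>
      simp [genOp, genS, kap, cof, down, ind, hb, Ne.symm, cre_bv, ann_bv_cons]

lemma kap_star (a : G ⊕ κ) : (starRingEnd ℂ) (kap a) = kap a := by
  rcases a with g | a
  · by_cases h : g = 1 <;> simp [kap, h, Complex.ext_iff]
  · simp [kap]

lemma gauE_symm (g : G) : (gauE κ g).symm = gauE κ g⁻¹ := by
  refine PEquiv.ext fun l => ?_
  rcases l with _ | ⟨x | x, t⟩
  · rfl
  · show some (Sum.inl (g * x) :: t) = some (Sum.inl (g⁻¹⁻¹ * x) :: t)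
    rw [inv_inv]
  · rfl

lemma star_cre (a : G ⊕ κ) : star (cre a : Fock G κ →L[ℂ] Fock G κ) = ann a := star_pull _

lemma star_ann (a : G ⊕ κ) : star (ann a : Fock G κ →L[ℂ] Fock G κ) = cre a := by
  rw [ann, star_pull, PEquiv.symm_symm]; rfl

lemma star_genA (g : G) : star (genA (κ := κ) g) = genA g⁻¹ := by
  have h : star (gau g : Fock G κ →L[ℂ] Fock G κ) = gau g⁻¹ := by
    rw [gau, star_pull, gauE_symm]; rfl
  simp only [genA, star_add, star_smul, star_one, star_cre, star_ann, h]
  by_cases hg : g = 1 <;> simp [hg, add_comm]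

lemma star_genS (a : κ) : star (genS (G := G) a) = genS a := by
  simp [genS, star_cre, star_ann, add_comm]

lemma star_genOp (a : G ⊕ κ) : star (genOp a : Fock G κ →L[ℂ] Fock G κ) = genOp (phi a) := by
  cases a <;> simp [genOp, star_genA, star_genS]

/-- reverse a list and take the adjoint letters -/
def sig (l : List (G ⊕ κ)) : List (G ⊕ κ) := (l.map phi).reverse

@[simp] lemma sig_nil : sig ([] : List (G ⊕ κ)) = [] := rfl

@[simp] lemma sig_cons (a : G ⊕ κ) (l : List (G ⊕ κ)) : sig (a :: l) = sig l ++ [phi a] := by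
  simp [sig]

@[simp] lemma sig_sig (l : List (G ⊕ κ)) : sig (sig l) = l := by
  simp [sig, List.map_reverse, Function.comp_def]

lemma sig_append (l m : List (G ⊕ κ)) : sig (l ++ m) = sig m ++ sig l := by simp [sig]

/-- `sig` as an equivalence -/
def sigEquiv : List (G ⊕ κ) ≃ List (G ⊕ κ) := ⟨sig, sig, sig_sig, sig_sig⟩

/-- the flip of the basis -/
noncomputable def flip : Fock G κ →L[ℂ] Fock G κ := pull (sigEquiv (G := G) (κ := κ)).toPEquiv

lemma flip_bv (l : List (G ⊕ κ)) : flip (bv l) = bv (sig l) := by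
  rw [flip, pull_bv, ← Equiv.toPEquiv_symm]; rfl

lemma flip_apply (v : Fock G κ) (l : List (G ⊕ κ)) :
    (flip v : List (G ⊕ κ) → ℂ) l = (v : List (G ⊕ κ) → ℂ) (sig l) := by
  rw [flip, pull_apply]; rfl

lemma flip_mul_flip : (flip * flip : Fock G κ →L[ℂ] Fock G κ) = 1 :=
  clm_ext fun l => by simp [flip_bv]

lemma flip_flip (v : Fock G κ) : flip (flip v) = v := by
  have h := congrArg (fun T : Fock G κ →L[ℂ] Fock G κ => T v) (flip_mul_flip (G := G) (κ := κ))
  simpa using h

lemma star_flip : star (flip : Fock G κ →L[ℂ] Fock G κ) = flip := by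
  rw [flip, star_pull, ← Equiv.toPEquiv_symm]; rfl

/-- the right generator -/
noncomputable def rgen (a : G ⊕ κ) : Fock G κ →L[ℂ] Fock G κ := flip * genOp a * flip

/-- value of a right generator on a list with last letter `z` -/
noncomputable def rval : G ⊕ κ → List (G ⊕ κ) → G ⊕ κ → Fock G κ
  | Sum.inl h, s, Sum.inl y =>
      kap (Sum.inl h : G ⊕ κ) • bv (s ++ [Sum.inl y])
        + cof (Sum.inl h : G ⊕ κ) • bv (s ++ [Sum.inl y, Sum.inl h⁻¹])
        + ((ind (y = h) * (1 / 2)) • bv s + bv (s ++ [Sum.inl (y * h⁻¹)]))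
  | Sum.inr a, s, Sum.inr b =>
      kap (Sum.inr a : G ⊕ κ) • bv (s ++ [Sum.inr b])
        + cof (Sum.inr a : G ⊕ κ) • bv (s ++ [Sum.inr b, Sum.inr a])
        + ind (b = a) • bv s
  | a, s, z => kap a • bv (s ++ [z]) + cof a • bv (s ++ [z, phi a])

lemma rgen_nil (a : G ⊕ κ) :
    rgen a (bv ([] : List (G ⊕ κ))) = kap a • bv [] + cof a • bv [phi a] := by
  simp [rgen, flip_bv, genOp_nil]

lemma rgen_snoc (a : G ⊕ κ) (s : List (G ⊕ κ)) (z : G ⊕ κ) :
    rgen a (bv (s ++ [z])) = rval a s z := by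
  rcases a with h | a <;> rcases z with y | b
  · have e : h * y⁻¹ = 1 ↔ y = h := by rw [mul_inv_eq_one, eq_comm]
    simp [rgen, flip_bv, genOp_cons, down, rval, sig_append, e]
  · simp [rgen, flip_bv, genOp_cons, down, rval, sig_append]
  · simp [rgen, flip_bv, genOp_cons, down, rval, sig_append]
  · simp [rgen, flip_bv, genOp_cons, down, rval, sig_append, eq_comm (a := a) (b := b)]

lemma rgen_one (a z : G ⊕ κ) : rgen a (bv [z]) = rval a [] z := rgen_snoc a [] z

lemma rgen_two (a x z : G ⊕ κ) : rgen a (bv [x, z]) = rval a [x] z := rgen_snoc a [x] z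

lemma rgen_cons_snoc (a x : G ⊕ κ) (s : List (G ⊕ κ)) (z : G ⊕ κ) :
    rgen a (bv (x :: (s ++ [z]))) = rval a (x :: s) z := rgen_snoc a (x :: s) z

lemma rgen_cons_cons_snoc (a x x' : G ⊕ κ) (s : List (G ⊕ κ)) (z : G ⊕ κ) :
    rgen a (bv (x :: x' :: (s ++ [z]))) = rval a (x :: x' :: s) z := rgen_snoc a (x :: x' :: s) z

/-- Left and right generators commute. -/
lemma commute_genOp_rgen (a b : G ⊕ κ) : Commute (genOp a : Fock G κ →L[ℂ] Fock G κ) (rgen b) := by
  refine clm_ext fun l => ?_
  show genOp a (rgen b (bv l)) = rgen b (genOp a (bv l))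
  rcases l with _ | ⟨x, s⟩
  · rcases a with g | a <;> rcases b with h | b
    · have e : g * h⁻¹ = 1 ↔ g = h := mul_inv_eq_one
      simp [genOp_nil, genOp_cons, rgen_nil, rgen_one, down, rval, cof, e]
      module
    · simp [genOp_nil, genOp_cons, rgen_nil, rgen_one, down, rval, cof]
      module
    · simp [genOp_nil, genOp_cons, rgen_nil, rgen_one, down, rval, cof]
      module
    · simp [genOp_nil, genOp_cons, rgen_nil, rgen_one, down, rval, kap, cof]
  · rcases s.eq_nil_or_concat with rfl | ⟨t, y, rfl⟩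
    · have e1 : ∀ g y h : G, g * (y * h⁻¹) = 1 ↔ g * y = h := fun g y h => by
        rw [← mul_assoc, mul_inv_eq_one]
      rcases a with g | a <;> rcases b with h | b <;> rcases x with x | x <;>
        simp [genOp_nil, genOp_cons, rgen_nil, rgen_one, rgen_two, down, rval, e1, mul_assoc] <;>
        module
    · simp only [List.concat_eq_append]
      rcases a with g | a <;> rcases b with h | b <;> rcases x with x | x <;>
        rcases y with y | y <;>
        simp [genOp_cons, rgen_snoc, rgen_cons_snoc, rgen_cons_cons_snoc, down, rval] <;>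
        module

end Vale.Agent.P087.Block1
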