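import Vale.Agent.P087.Block1.Trace

/-!
# The moment recursion in the last letter (P087, block 1)
-/

open scoped InnerProductSpace ENNReal

namespace Vale.Agent.P087

namespace Block1

open Classical

set_option linter.unusedSectionVars false

variable {G : Type*} [Group G] {κ : Type*}

lemma splitSum_nil {P : Type*} (F : List P → P → List P → ℂ) : splitSum [] F = 0 := by
  simp [splitSum]

lemma splitSum_cons {P : Type*} (x : P) (w : List P) (F : List P → P → List P → ℂ) :
    splitSum (x :: w) F = F [] x w + splitSum w fun p y s => F (x :: p) y s := by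
  simp [splitSum, Fin.sum_univ_succ]

lemma splitSum_congr {P : Type*} (w : List P) {F F' : List P → P → List P → ℂ}
    (h : ∀ p x s, F p x s = F' p x s) : splitSum w F = splitSum w F' := by
  simp [splitSum, h]

lemma splitSum_mul {P : Type*} (w : List P) (c : ℂ) (F : List P → P → List P → ℂ) :
    c * splitSum w F = splitSum w fun p x s => c * F p x s := by
  simp [splitSum, Finset.mul_sum]

/-- append a letter on the right -/
noncomputable def app (z : G ⊕ κ) : Fock G κ →L[ℂ] Fock G κ := flip * cre (phi z) * flip

lemma app_bv (z : G ⊕ κ) (l : List (G ⊕ κ)) : app z (bv l) = bv (l ++ [z]) := by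
  simp [app, flip_bv, cre_bv]

lemma down_append (x y z : G ⊕ κ) (t : List (G ⊕ κ)) :
    down x y (t ++ [z]) = app z (down x y t) := by
  rcases x with g | a <;> rcases y with h | b <;> simp [down, app_bv]

lemma inner_vac_app (z : G ⊕ κ) (v : Fock G κ) : ⟪bv [], app z v⟫_ℂ = 0 := by
  rw [inner_bv]
  show (flip (cre (phi z) (flip v)) : List (G ⊕ κ) → ℂ) [] = 0
  rw [flip_apply, cre, pull_apply]
  rfl

lemma genOp_app (x z : G ⊕ κ) (v : Fock G κ) :
    genOp x (app z v) = app z (genOp x v) + ⟪bv [], v⟫_ℂ • down x z [] := by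
  have h : (genOp x * app z : Fock G κ →L[ℂ] Fock G κ)
      = app z * genOp x + (innerSL ℂ (bv [])).smulRight (down x z []) := by
    refine clm_ext fun l => ?_
    rcases l with _ | ⟨y, t⟩
    · have hn : ‖bv ([] : List (G ⊕ κ))‖ = 1 := by simp [bv]
      simp [app_bv, genOp_nil, genOp_cons, hn]
    · simp [app_bv, genOp_cons, down_append, inner_bv, bv_apply]
  have := congrArg (fun T : Fock G κ →L[ℂ] Fock G κ => T v) h
  simpa using this

lemma inner_wordOp_single (w : List (G ⊕ κ)) (z : G ⊕ κ) (u : Fock G κ) :
    ⟪u, wordOp genOp w (bv [z])⟫_ℂ = ⟪u, app z (wordOp genOp w (bv []))⟫_ℂ +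
      splitSum w fun p y s =>
        tau (bv []) (wordOp genOp s) * ⟪u, wordOp genOp p (down y z [])⟫_ℂ := by
  induction w generalizing u with
  | nil => simp [splitSum_nil, wordOp_nil, app_bv]
  | cons x w ih =>
    have step : ∀ v, ⟪u, genOp x v⟫_ℂ = ⟪star (genOp x) u, v⟫_ℂ := fun v => by
      rw [ContinuousLinearMap.star_eq_adjoint, ContinuousLinearMap.adjoint_inner_left]
    rw [wordOp_cons]
    show ⟪u, genOp x (wordOp genOp w (bv [z]))⟫_ℂ = _
    rw [step, ih, ← step, genOp_app, inner_add_right, inner_smul_right, splitSum_cons, add_assoc]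
    refine congrArg₂ (· + ·) rfl (congrArg₂ (· + ·) ?_ (splitSum_congr w fun p y s => ?_))
    · simp [tau, wordOp_nil]
    · rw [← step, wordOp_cons]
      rfl

lemma tau_snoc (w : List (G ⊕ κ)) (z : G ⊕ κ) :
    tau (bv []) (wordOp genOp (w ++ [z])) = kap z * tau (bv []) (wordOp genOp w) +
      splitSum w fun p y s =>
        cof z * ⟪bv [], wordOp genOp p (down y z [])⟫_ℂ * tau (bv []) (wordOp genOp s) := by
  show ⟪bv [], wordOp genOp (w ++ [z]) (bv [])⟫_ℂ = _
  rw [wordOp_append_apply, wordOp_cons, wordOp_nil, mul_one, genOp_nil, map_add, map_smul,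
    map_smul, inner_add_right, inner_smul_right, inner_smul_right, inner_wordOp_single,
    inner_vac_app, zero_add, splitSum_mul]
  exact congrArg₂ (· + ·) rfl (splitSum_congr w fun p y s => by ring)

end Block1

/-- The moment recursion in the last letter. -/
theorem recursionPin_holds : RecursionPin := fun G _ κ hG hκ w => by
  refine ⟨fun g => ?_, fun a => ?_⟩
  · rw [Block1.vac_eq, Block1.tau_snoc]
    refine congrArg₂ (· + ·) ?_ (Block1.splitSum_congr w fun p x s => ?_)
    · simp [Block1.kap]
    · rcases x with h | b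
      · refine congrArg (· * _) ?_
        show _ = ⟪Block1.bv [], wordOp genOp (p ++ [Sum.inl (h * g)]) (Block1.bv [])⟫_ℂ
        rw [Block1.wordOp_append_apply, Block1.wordOp_cons, Block1.wordOp_nil, mul_one,
          Block1.genOp_nil]
        simp only [Block1.down, Block1.cof, Block1.kap, Block1.ind, Sum.elim_inl, map_add,
          map_smul, inner_add_right, inner_smul_right]
        by_cases hg : h * g = 1 <;> simp [hg]
        ring
      · simp [Block1.down]
  · rw [Block1.vac_eq, Block1.tau_snoc]
    rw [show Block1.kap (Sum.inr a : G ⊕ κ) = 0 from rfl, zero_mul, zero_add]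
    refine Block1.splitSum_congr w fun p x s => ?_
    rcases x with h | b
    · simp [Block1.down]
    · by_cases hb : b = a <;>
        simp [Block1.down, Block1.cof, Block1.ind, hb, tau]

end Vale.Agent.P087
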