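import Vale.Agent.P087.Block1.Basic
import Vale.Agent.P087.Pins

/-!
# The generators lie in a tracial von Neumann algebra (P087, block 1)
-/

open scoped InnerProductSpace ENNReal

namespace Vale.Agent.P087

namespace Block1

open Classical

set_option linter.unusedSectionVars false

variable {G : Type*} [Group G] {κ : Type*}

lemma wordOp_nil {ι : Type*} {H : Type*} [NormedAddCommGroup H] [InnerProductSpace ℂ H]
    [CompleteSpace H] (X : ι → H →L[ℂ] H) : wordOp X [] = 1 := rfl

lemma wordOp_cons {ι : Type*} {H : Type*} [NormedAddCommGroup H] [InnerProductSpace ℂ H]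
    [CompleteSpace H] (X : ι → H →L[ℂ] H) (a : ι) (w : List ι) :
    wordOp X (a :: w) = X a * wordOp X w := by simp [wordOp]

lemma wordOp_append {ι : Type*} {H : Type*} [NormedAddCommGroup H] [InnerProductSpace ℂ H]
    [CompleteSpace H] (X : ι → H →L[ℂ] H) (v w : List ι) :
    wordOp X (v ++ w) = wordOp X v * wordOp X w := by simp [wordOp]

lemma wordOp_append_apply {ι : Type*} {H : Type*} [NormedAddCommGroup H] [InnerProductSpace ℂ H]
    [CompleteSpace H] (X : ι → H →L[ℂ] H) (v w : List ι) (x : H) :
    wordOp X (v ++ w) x = wordOp X v (wordOp X w x) := by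
  rw [wordOp_append]; rfl

lemma star_wordOp (w : List (G ⊕ κ)) :
    star (wordOp genOp w : Fock G κ →L[ℂ] Fock G κ) = wordOp genOp (sig w) := by
  induction w with
  | nil => simp [wordOp_nil]
  | cons a w ih =>
    rw [wordOp_cons, star_mul, ih, sig_cons, wordOp_append, star_genOp, wordOp_cons, wordOp_nil,
      mul_one]

lemma ind_star (p : Prop) : (starRingEnd ℂ) (ind p) = ind p := by
  unfold ind; split_ifs <;> simp

lemma cof_star (a : G ⊕ κ) : (starRingEnd ℂ) (cof a) = cof a := by
  cases a <;> simp [cof, Complex.ext_iff]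

/-- A real linear property of all `wordOp genOp w` applied to the vacuum holds on all basis
vectors. -/
lemma bv_induction {P : Fock G κ → Prop} (h0 : P 0) (hadd : ∀ u v, P u → P v → P (u + v))
    (hsmul : ∀ (r : ℂ) (v), (starRingEnd ℂ) r = r → P v → P (r • v))
    (hw : ∀ w, P (wordOp genOp w (bv []))) (l : List (G ⊕ κ)) : P (bv l) := by
  suffices H : ∀ N, ∀ l : List (G ⊕ κ), l.length = N → ∀ w, P (wordOp genOp w (bv l)) by
    simpa [wordOp_nil] using H _ l rfl []
  intro N
  induction N using Nat.strong_induction_on with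
  | _ N ih =>
    intro l hl w
    rcases l with _ | ⟨x, s⟩
    · exact hw w
    simp only [List.length_cons] at hl
    have hs : ∀ v, P (wordOp genOp v (bv s)) := ih _ (by omega) s rfl
    have key : ∀ z, genOp x (bv s) = kap x • bv s + cof x • bv (x :: s) + z →
        P (wordOp genOp w z) → P (wordOp genOp w (bv (x :: s))) := by
      intro z hz hPz
      have e : bv (x :: s) = (cof x)⁻¹ •
          (genOp x (bv s) + (-kap x) • bv s + (-1 : ℂ) • z) := by
        have h1 : genOp x (bv s) + (-kap x) • bv s + (-1 : ℂ) • z = cof x • bv (x :: s) := by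
          rw [hz]; module
        rw [h1, inv_smul_smul₀ (cof_ne_zero x)]
      rw [e]
      simp only [map_smul, map_add]
      refine hsmul _ _ (by rw [map_inv₀, cof_star]) (hadd _ _ (hadd _ _ ?_ ?_) ?_)
      · have := hs (w ++ [x])
        rwa [wordOp_append_apply, wordOp_cons, wordOp_nil, mul_one] at this
      · exact hsmul _ _ (by rw [map_neg, kap_star]) (hs w)
      · exact hsmul _ _ (by simp) hPz
    rcases s with _ | ⟨y, t⟩
    · exact key 0 (by rw [genOp_nil, add_zero]) (by simpa using h0)
    · refine key _ (genOp_cons x y t) ?_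
      simp only [List.length_cons] at hl
      have ht : ∀ v, P (wordOp genOp v (bv t)) := ih _ (by omega) t rfl
      rcases x with g | a <;> rcases y with y | b <;> simp only [down, map_add, map_smul, map_zero]
      · refine hadd _ _ (hsmul _ _ ?_ (ht w))
          (ih (t.length + 1) (by omega) _ (by simp) w)
        rw [map_mul, ind_star]; simp [Complex.ext_iff]
      · exact h0
      · exact h0
      · exact hsmul _ _ (ind_star _) (ht w)

/-- a word in the right generators -/
noncomputable def rword (w : List (G ⊕ κ)) : Fock G κ →L[ℂ] Fock G κ :=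
  flip * wordOp genOp w * flip

lemma rword_nil : rword ([] : List (G ⊕ κ)) = 1 := by
  simp [rword, wordOp_nil, flip_mul_flip]

lemma rword_cons (a : G ⊕ κ) (w : List (G ⊕ κ)) : rword (a :: w) = rgen a * rword w := by
  calc rword (a :: w) = flip * genOp a * 1 * wordOp genOp w * flip := by
        simp [rword, wordOp_cons, mul_assoc]
    _ = rgen a * rword w := by
        rw [← flip_mul_flip]; simp [rgen, rword, mul_assoc]

lemma star_rword (w : List (G ⊕ κ)) : star (rword w) = rword (sig w) := by
  simp [rword, star_mul, star_flip, star_wordOp, mul_assoc]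

lemma commute_wordOp_rgen (w : List (G ⊕ κ)) (b : G ⊕ κ) :
    Commute (wordOp genOp w : Fock G κ →L[ℂ] Fock G κ) (rgen b) := by
  induction w with
  | nil => exact Commute.one_left _
  | cons a w ih => rw [wordOp_cons]; exact (commute_genOp_rgen a b).mul_left ih

lemma rgen_vac (b : G ⊕ κ) :
    rgen b (bv ([] : List (G ⊕ κ))) = genOp (phi b) (bv []) := by
  rw [rgen_nil, genOp_nil]
  rcases b with g | a <;> simp [kap, cof]

lemma rword_vac (w : List (G ⊕ κ)) :
    rword w (bv []) = wordOp genOp (sig w) (bv ([] : List (G ⊕ κ))) := by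
  induction w with
  | nil => simp [rword_nil, wordOp_nil]
  | cons b w ih =>
    have e : rgen b (wordOp genOp (sig w) (bv [])) = wordOp genOp (sig w) (rgen b (bv [])) :=
      congrArg (fun T : Fock G κ →L[ℂ] Fock G κ => T (bv [])) (commute_wordOp_rgen (sig w) b).symm.eq
    rw [rword_cons, sig_cons, wordOp_append_apply]
    show rgen b (rword w (bv [])) = _
    rw [ih, e, rgen_vac, wordOp_cons, wordOp_nil, mul_one]

lemma rword_vac' (w : List (G ⊕ κ)) :
    rword w (bv []) = flip (wordOp genOp w (bv ([] : List (G ⊕ κ)))) := by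
  show flip (wordOp genOp w (flip (bv []))) = _
  rw [flip_bv, sig_nil]

variable {a b : Fock G κ →L[ℂ] Fock G κ}

lemma commute_rword (ha : ∀ x, Commute a (rgen x)) (w : List (G ⊕ κ)) : Commute a (rword w) := by
  induction w with
  | nil => rw [rword_nil]; exact Commute.one_right a
  | cons x w ih => rw [rword_cons]; exact (ha x).mul_right ih

/-- For the commutant of the right generators, the adjoint acts on the vacuum by the flip followed
by conjugation of coordinates. -/
lemma star_vac_apply (ha : ∀ x, Commute a (rgen x)) (l : List (G ⊕ κ)) :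
    (star a (bv []) : List (G ⊕ κ) → ℂ) l
      = (starRingEnd ℂ) ((a (bv []) : List (G ⊕ κ) → ℂ) (sig l)) := by
  have key : ⟪star a (bv []), bv l⟫_ℂ = ⟪flip (bv l), a (bv [])⟫_ℂ := by
    refine bv_induction (P := fun v => ⟪star a (bv []), v⟫_ℂ = ⟪flip v, a (bv [])⟫_ℂ)
      (by simp) (fun u v hu hv => by simp [hu, hv])
      (fun r v hr hv => by simp [hr, hv, mul_comm]) (fun w => ?_) l
    rw [ContinuousLinearMap.star_eq_adjoint, ContinuousLinearMap.adjoint_inner_left]
    have e1 : a (rword (sig w) (bv [])) = rword (sig w) (a (bv [])) :=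
      congrArg (fun T : Fock G κ →L[ℂ] Fock G κ => T (bv [])) (commute_rword ha (sig w)).eq
    have e2 : wordOp genOp w (bv []) = rword (sig w) (bv ([] : List (G ⊕ κ))) := by
      rw [rword_vac, sig_sig]
    rw [← rword_vac', e2, e1, ← star_rword, ContinuousLinearMap.star_eq_adjoint,
      ContinuousLinearMap.adjoint_inner_right]
  rw [flip_bv, inner_bv, inner_bv_right] at key
  rw [← key, Complex.conj_conj]

lemma trace_swap (ha : ∀ x, Commute a (rgen x)) (hb : ∀ x, Commute b (rgen x)) :
    tau (bv ([] : List (G ⊕ κ))) (a * b) = tau (bv []) (b * a) := by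
  have f : ∀ {a b : Fock G κ →L[ℂ] Fock G κ}, (∀ x, Commute a (rgen x)) →
      tau (bv ([] : List (G ⊕ κ))) (a * b)
        = ∑' l, (a (bv []) : List (G ⊕ κ) → ℂ) (sig l) * (b (bv []) : List (G ⊕ κ) → ℂ) l := by
    intro a b ha
    show ⟪bv [], a (b (bv []))⟫_ℂ = _
    rw [← ContinuousLinearMap.adjoint_inner_left, ← ContinuousLinearMap.star_eq_adjoint,
      lp.inner_eq_tsum]
    exact tsum_congr fun l => by simp [star_vac_apply ha, mul_comm]
  rw [f ha, f hb, ← sigEquiv.tsum_eq]
  refine tsum_congr fun l => ?_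
  show (a (bv []) : List (G ⊕ κ) → ℂ) (sig (sig l)) * (b (bv []) : List (G ⊕ κ) → ℂ) (sig l) = _
  rw [sig_sig, mul_comm]

lemma faithful (ha : ∀ x, Commute a (rgen x))
    (h : tau (bv ([] : List (G ⊕ κ))) (star a * a) = 0) : a = 0 := by
  have h1 : a (bv []) = 0 := by
    refine inner_self_eq_zero (𝕜 := ℂ).1 ?_
    rw [← ContinuousLinearMap.adjoint_inner_right, ← ContinuousLinearMap.star_eq_adjoint]
    exact h
  refine clm_ext fun l => ?_
  refine bv_induction (P := fun v => a v = (0 : Fock G κ →L[ℂ] Fock G κ) v) (by simp)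
    (fun u v hu hv => by simp_all) (fun r v _ hv => by simp_all) (fun w => ?_) l
  have e : a (rword (sig w) (bv [])) = rword (sig w) (a (bv [])) :=
    congrArg (fun T : Fock G κ →L[ℂ] Fock G κ => T (bv [])) (commute_rword ha (sig w)).eq
  have e2 : wordOp genOp w (bv []) = rword (sig w) (bv ([] : List (G ⊕ κ))) := by
    rw [rword_vac, sig_sig]
  rw [e2, e, h1, map_zero]
  simp

variable (G κ)

/-- the von Neumann algebra of the generators -/
noncomputable def vnAlg : VonNeumannAlgebra (Fock G κ) where
  toStarSubalgebra :=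
    StarSubalgebra.centralizer ℂ
      (StarSubalgebra.centralizer ℂ (Set.range (genOp (G := G) (κ := κ))) :
        Set (Fock G κ →L[ℂ] Fock G κ))
  centralizer_centralizer' := by
    show Set.centralizer (Set.centralizer
      ((StarSubalgebra.centralizer ℂ (StarSubalgebra.centralizer ℂ (Set.range (genOp (G := G) (κ := κ))) :
        Set (Fock G κ →L[ℂ] Fock G κ))) : Set (Fock G κ →L[ℂ] Fock G κ))) = _
    rw [StarSubalgebra.coe_centralizer_centralizer, Set.centralizer_centralizer_centralizer]
    exact (StarSubalgebra.coe_centralizer_centralizer ℂ _).symm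

variable {G κ}

lemma mem_vnAlg {a : Fock G κ →L[ℂ] Fock G κ} :
    a ∈ vnAlg G κ ↔ ∀ c ∈ StarSubalgebra.centralizer ℂ (Set.range (genOp (G := G) (κ := κ))),
      c * a = a * c := by
  show a ∈ StarSubalgebra.centralizer ℂ _ ↔ _
  rw [StarSubalgebra.mem_centralizer_iff]
  exact ⟨fun h c hc => (h c hc).1, fun h c hc => ⟨h c hc, h _ (star_mem hc)⟩⟩

lemma commute_of_mem (ha : a ∈ vnAlg G κ) (x : G ⊕ κ) : Commute a (rgen x) := by
  refine (mem_vnAlg.1 ha (rgen x) ?_).symm
  rw [StarSubalgebra.mem_centralizer_iff]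
  rintro _ ⟨y, rfl⟩
  exact ⟨(commute_genOp_rgen y x).eq, by rw [star_genOp]; exact (commute_genOp_rgen _ x).eq⟩

lemma genOp_mem (x : G ⊕ κ) : genOp x ∈ vnAlg G κ := by
  refine mem_vnAlg.2 fun c hc => ?_
  rw [StarSubalgebra.mem_centralizer_iff] at hc
  exact (hc _ ⟨x, rfl⟩).1.symm

end Block1

/-- The generators lie in a tracial von Neumann algebra. -/
theorem tracePin_holds : TracePin := fun G _ κ => by
  refine ⟨Block1.vnAlg G κ, ⟨?_, fun a ha b hb => ?_, fun a ha h => ?_⟩, Block1.genOp_mem⟩
  · simp [vac]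
  · exact Block1.trace_swap (Block1.commute_of_mem ha) (Block1.commute_of_mem hb)
  · exact Block1.faithful (Block1.commute_of_mem ha) h

/-- The generators are self-adjoint. -/
theorem selfAdjPin_holds : SelfAdjPin := fun G _ κ => by
  refine ⟨fun g hg => ?_, fun a => Block1.star_genS a⟩
  show star (genA g) = genA g
  rw [Block1.star_genA, inv_eq_of_mul_eq_one_left hg]

end Vale.Agent.P087
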